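import Vale.Agent.P105.Tower

/-!
A singular Bernoulli convolution whose parameter is not the inverse of a Pisot number.
-/

namespace Vale.Agent.Results.P105.SalemSingular

open MeasureTheory Vale.Agent.P105

/-- There is `lam ∈ (1/2,1)`, namely the inverse of the largest root of
`x^4 - x^3 - x^2 - x + 1`, such that `lam⁻¹` is an algebraic integer greater than one which is not
Pisot (a conjugate other than itself has absolute value at least one) and the law of
`∑ ± lam^n` is mutually singular with Lebesgue measure. -/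
theorem result : ∃ lam : ℝ, 1 / 2 < lam ∧ lam < 1 ∧
    lam⁻¹ ^ 4 - lam⁻¹ ^ 3 - lam⁻¹ ^ 2 - lam⁻¹ + 1 = 0 ∧
    IsIntegral ℤ lam⁻¹ ∧
    ¬ (∀ x : ℂ, Polynomial.aeval x (minpoly ℚ lam⁻¹) = 0 → x ≠ ((lam⁻¹ : ℝ) : ℂ) → ‖x‖ < 1) ∧
    IsProbabilityMeasure
      ((Measure.infinitePi fun _ : ℕ => (PMF.uniformOfFintype Bool).toMeasure).map
        (fun ω => ∑' n : ℕ, (if ω n then (1 : ℝ) else -1) * lam ^ n)) ∧
    Measure.MutuallySingular
      ((Measure.infinitePi fun _ : ℕ => (PMF.uniformOfFintype Bool).toMeasure).map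
        (fun ω => ∑' n : ℕ, (if ω n then (1 : ℝ) else -1) * lam ^ n))
      volume := by
  refine ⟨β⁻¹, ?_, beta_inv_lt_one, ?_, ?_, ?_,
    isProbability_bern (inv_nonneg.2 beta_pos.le) beta_inv_lt_one, ?_⟩
  · rw [one_div]
    exact inv_strictAnti₀ beta_pos beta_lt_two
  · rw [inv_inv]
    linear_combination (β ^ 2 + (u - 1) * β + 1) * beta_sq + β ^ 2 * u_sq
  · rw [inv_inv]; exact isIntegral_beta
  · rw [inv_inv]
    intro h
    have h1 := h z aeval_minpoly_z z_ne_beta
    rw [norm_z] at h1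
    exact lt_irrefl _ h1
  · obtain ⟨g, hg, hD⟩ := exists_data
    exact mutuallySingular_of_data beta_gt_one hg hD

end Vale.Agent.Results.P105.SalemSingular
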